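import Vale.Agent.P145.Final

open Vale.Agent.P145 Vale.Agent.P145.AT

theorem Vale.Agent.Results.P145.GffA.result (J U : ℝ) (_hJ : 0 < J) (hU : U ≤ J)
    (h : Real.sinh (2 * J) = Real.exp (-2 * U)) :
    (∀ D : Set ℂ, IsJordanDomain D →
      ∃ ψ : ℂ → ℂ, Vale.Agent.P153.IsJordanMap ψ ∧ ψ '' Metric.ball 0 1 = D) ∧
    ∃ σ : ℝ, 0 < σ ∧
      Conv ((1 + Real.exp (4 * U)) ^ (-(1 / 2) : ℝ)) (σ ^ 2 * (2 * Real.pi)) :=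
  ⟨fun _ => jdom_map, par_t U ▸ conv_ex (par_lt U) (par_le hU h)⟩
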